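import Mathlib.Analysis.SpecialFunctions.Gamma.Basic
import Mathlib.Analysis.SpecialFunctions.Pow.Real
import Mathlib.Analysis.SpecialFunctions.Trigonometric.Basic
import Mathlib.NumberTheory.PrimeCounting

/-!
Target statement of the project: the rational-prime form of Patterson's first-moment conjecture.
-/

namespace Vale.Agent.P006

open Filter Topology Real

/-- Rational-prime form of Patterson's first moment conjecture for cubic Gauss sums. -/
def Q1Stmt : Prop :=
  Tendsto (fun X : ℝ =>
      (∑ p ∈ (Finset.Icc 1 ⌊X⌋₊).filter (fun p : ℕ => p.Prime ∧ p % 3 = 1),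
        (∑ x ∈ Finset.range p, Real.cos (2 * π * (x : ℝ) ^ 3 / p)) / (2 * √(p : ℝ)))
        / (X ^ (5 / 6 : ℝ) / Real.log X))
    atTop (𝓝 ((2 * π) ^ (2 / 3 : ℝ) / (5 * Real.Gamma (2 / 3))))

end Vale.Agent.P006
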